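import Crest.Agent.X212.Rw22.Far

/-!
# Row 212, layer S (helper22): a killed class gives non-vanishing data
-/

set_option autoImplicit false

open Module Function

noncomputable section

namespace Crest.Agent.X212.Nva22

open Bor5 Win22 Rw22

theorem nvd {X Z : Ob} (hX : X.P = 1) (hZ : Z.P = 1) (hp : Z.Pure ∧ ∀ s, Z.d s = 0) (G : Fam X Z) (hG : G.Neg)
    {x : X.H} (hx : x ≠ 0) (h : G.F 1 x = 0) : Nonempty (NVD X) := by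
  have k : ∀ n : ℤ, G.F 1 (Pi.single (M := fun _ : ℤ => X.H) 0 x n) = 0 := fun n => by
    by_cases e : n = 0
    · rw [e, Pi.single_eq_same, h]
    · rw [Pi.single_eq_of_ne e, map_zero]
  exact ⟨⟨Z, hX, hZ, hp, G, hG, Pi.single 0 x, (Set.finite_singleton 0).subset Pi.support_single_subset,
    fun e => hx (by simpa using congrFun e 0), 1, one_ne_zero, 1, fun n => (k n).trans (k _).symm⟩⟩

theorem nvh {L : Vx → Type} {A : ∀ i, Hf (L i)} (ρ : Rod Set.univ vK (0, 1) A)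
    (sph : ∀ i, i.1.2 = 0 → Rw22.Pure (A i) fun _ => 0) (h1 : Sl 1 1) (h0 : Sl 1 0) {m m' : ℤ} {x : (A ⟨(1, 1), h1⟩).H}
    (hm : Even (m + ρ.ε ⟨(1, 1), h1⟩)) (hm' : Even (m' + ρ.ε ⟨(1, 0), h0⟩)) (hk : m - m' = 1 ∨ m - m' = -1)
    (hx : x ≠ 0) (h : ρ.F (ρ.c2 ⟨(1, 1), h1⟩ ⟨(1, 0), h0⟩ m m') x = 0) : NVH (A ⟨(1, 1), h1⟩) := by
  let D : InK := ⟨L, A, ρ, sph⟩
  have sp := D.lb.spec D.R (a := ⟨(1, 1), h1⟩) (b := ⟨(1, 0), h0⟩) ⟨trivial, trivial, .inl rfl⟩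
  have hp := sph ⟨(1, 0), h0⟩ rfl
  have pu : (D.lb.ob D.A ⟨(1, 0), h0⟩).Pure ∧ ∀ s, (D.lb.ob D.A ⟨(1, 0), h0⟩).d s = 0 :=
    pure_of _ (fun _ => 0) (fun s => hp.1 _) fun s => hp.2 _
  have ek : kp (0, 1) (vK ⟨(1, 1), h1⟩) (vK ⟨(1, 0), h0⟩) m m' = m - m' := by simp [kp, dot, vK]
  refine ⟨D.lb.ob D.A ⟨(1, 1), h1⟩, ?_, fun P hP φ =>
    ⟨Hf.obIso _ _ _ _ _ (LinearEquiv.refl _ _) (Equiv.refl _) (fun _ _ _ h => h) fun _ => rfl⟩⟩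
  rcases hk with hk | hk
  · exact nvd rfl rfl pu _ (sp.isNeg (show (-1 : ℤ) < 0 by decide)) hx (by rw [sp.F' hm hm' (by rw [ek, hk]; rfl)]; exact h)
  · exact nvd rfl rfl pu _ (sp.neg.isNeg (show (-1 : ℤ) < 0 by decide)) hx (by rw [sp.neg.F' hm hm' (by rw [ek, hk]; rfl)]; exact h)

end Crest.Agent.X212.Nva22
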