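import Crest.Agent.X212.Nva22.Alg
import Crest.Agent.X212.Nv5.Stm

/-!
# Row 212, layer S (helper22): NV-ALG
-/

set_option autoImplicit false

namespace Crest.Agent.X212.Nva22

theorem alg : Nv5.AlgStmt := fun _ _ ρ h _ _ _ a b c d e => nvh ρ h _ _ a b c d e

end Crest.Agent.X212.Nva22
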